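import Vale.Agent.P226.GainFinal

/-!
# The Gaussian propeller inequality

Every measurable partition of every Euclidean space into finitely many cells has sum of squared
Gaussian moments at most `9 / (8π)`.
-/

namespace Vale.Agent.Results.P226.Propeller

open MeasureTheory ProbabilityTheory Real Set Finset Vale.Agent.P226

/-- Every measurable partition of `ℝ^d` into `k` cells obeys the propeller bound. -/
theorem result : ∀ (d k : ℕ) (A : Fin k → Set (EuclideanSpace ℝ (Fin d))),
    (∀ i, MeasurableSet (A i)) → (Pairwise fun i j => Disjoint (A i) (A j)) →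
    (⋃ i, A i) = Set.univ →
    ∑ i, ‖∫ x in A i, x ∂stdGaussian (EuclideanSpace ℝ (Fin d))‖ ^ 2 ≤ 9 / (8 * π) :=
  propeller_of_gain (gainBound_of_five_le gain_rest_five_le)

end Vale.Agent.Results.P226.Propeller
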